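import Crest.Agent.X262.Node22.Chn
import Crest.Agent.X262.Vb.Loc
import Crest.Agent.X262.Wd54.Defs
import Crest.Agent.X262.Tree87.Rank
import Crest.Agent.X262.Gen42.Two
import Crest.Agent.X262.Wd54.Lat
import Crest.Agent.X262.Vb37.Mob
import Crest.Agent.X262.Bub96.NormB
import Crest.Agent.X262.DropD.Main

-- ▼ part X262/Node22/Liv
section

/-!
# Row 262, road B (helper22): node algebra along places

* `Nd T z q q'` : the rank conditions for a family of configurations with a node at `q, q'`;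
* `tF`, `pF`, `jF` : Chern polynomials of `T_Y`, `T_P` and of the glued obstruction space;
* they live on the supports, satisfy `jF * pF = tF * cpF`, and have the expected roots.
-/

set_option autoImplicit false
set_option linter.unusedSectionVars false

noncomputable section

namespace Crest.Agent.X262.Node22

open Crest.Agent.X277 Crest.Agent.X277.BD Crest.Agent.X277.Pst Crest.Agent.X277.BD.Cyc
open Crest.Agent.X262.Vb Crest.Agent.X262.Hb Polynomial Module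
open Crest.Agent.X262.Sym65 (PF PX Liv LivX Sup Cl cf cl_sup sup_inf)

variable {J : Type} [Fintype J] [DecidableEq J] {io : J → Type} [∀ j, Fintype (io j)]
  [∀ j, DecidableEq (io j)] {A : Type} [Fintype A] {K E L : Type} [Field K] [Algebra ℂ K]
  [Field E] [Algebra ℂ E] [Field L] [Algebra ℂ L] {I : Type} [Fintype I]
  {B : Th} {T : Tgt io A} {c N : ℕ} {z z' : Cfg io I K} {q q' : I}

/-- a natural function of the configuration lives on `Z` -/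
theorem livX_of (hz : z.NZ) (N : ℕ) {Z : Set (RZ ℂ K)} (hc : Cl Z)
    (F : ∀ (E : Type) [Field E] [Algebra ℂ E], Cfg io I E → (B.H E)[X])
    (G : ∀ (E : Type) [Field E] [Algebra ℂ E], Cfg io I E → Prop)
    (hZ : ∀ (E : Type) [Field E] [Algebra ℂ E] (p : LP K E), p.V ∈ Z → G E (z.red p.toPl))
    (hG : ∀ (E : Type) [Field E] [Algebra ℂ E] [Algebra.EssFiniteType ℂ E] (w w' : Cfg io I E),
      Cfg.GeqN N w w' → w.NZ → G E w' → G E w ∧ F E w' = F E w)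
    (hm : ∀ (E₀ E : Type) [Field E₀] [Algebra ℂ E₀] [Algebra.EssFiniteType ℂ E₀] [Field E]
      [Algebra ℂ E] [Algebra.EssFiniteType ℂ E] (α : E₀ →ₐ[ℂ] E) (w : Cfg io I E₀), w.NZ →
      G E (w.map α) → F E (w.map α) = (F E₀ w).map (B.pb (LP.hom α) : B.H E₀ →+* B.H E))
    (hr : ∀ (E L : Type) [Field E] [Algebra ℂ E] [Algebra.EssFiniteType ℂ E] [Field L]
      [Algebra ℂ L] [Algebra.EssFiniteType ℂ L] (p : LP K E) (r : LP E L) (w : Cfg io I E),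
      p.V ∈ Z → w = (z.red p.toPl).gau ((z.red p.toPl).nrm r.V) → w.Pr r.V → G E w →
      G L (w.red0 r.toPl) → F L (w.red0 r.toPl) = (F E w).map (B.pb r : B.H E →+* B.H L)) :
    LivX B Z fun E _ _ p => F E (z.red p.toPl) where
  nat E L _ _ _ _ _ _ p r hp := by
    have h1 := hG L _ _ ((Cfg.red_comp p r hz).symm.geqN N) ((hz.red _).red _)
      (hZ L (p.comp r) (hc _ _ (Pl.cm_le _) hp))
    have h2 := hG E _ _ ((Cfg.geq_gau _ (Cfg.nrm_ne r.V (z.red p.toPl))).symm.geqN N)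
      ((hz.red _).gau (Cfg.nrm_ne r.V _)) (hZ E p hp)
    rw [h1.2, h2.2]
    exact hr E L p r _ hp rfl (Cfg.pr_nrm (hz.red _) _) h2.1 h1.1
  loc := lcX_of hz N F fun E₀ E _ _ _ _ _ _ z₀ α p hp h0 h => by
    have h1 := hG E _ _ h (h0.map α) (hZ E p hp)
    rw [h1.2, hm E₀ E α z₀ h0 h1.1]

theorem geqN_y (h : Cfg.GeqN N z z') :
    ∃ c : I → J → K, (∀ q j, c q j ≠ 0) ∧ ∀ q, z'.y q = scl (c q) (z.y q) :=
  h.imp fun _ h => ⟨h.1, congrFun h.2.1⟩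

theorem Par.geqN (hP : Par (z.y q) (z.y q')) (h : Cfg.GeqN N z z') : Par (z'.y q) (z'.y q') := by
  obtain ⟨c, hc, e⟩ := geqN_y h
  rw [e, e]
  exact hP.scl (hc q) (hc q')

theorem jn_geqN (h : Cfg.GeqN N z z') : Cfg.GeqN N (jn z q q') (jn z' q q') := by
  obtain ⟨c, hc, h1, h2⟩ := h
  refine ⟨c, hc, h1, fun κ hκ => ?_⟩
  rw [jn_gau hc]
  change z'.V κ ⊓ agr z'.y q q' κ = (z.gau c).V κ ⊓ agr (z.gau c).y q q' κ
  rw [h1, h2 κ hκ]

theorem Eb_congr (h1 : z'.y = z.y) (h2 : ∀ a, z'.V (T.k a) = z.V (T.k a)) : z'.Eb T = z.Eb T :=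
  Submodule.ext fun σ => by simp only [mem_Eb, h1, h2]

theorem EV.geqN (hv : EV T z q q') (hk : ∀ a j, T.k a j ≤ N) (h : Cfg.GeqN N z z') :
    EV T z' q q' := by
  obtain ⟨c, hc, h1, h2⟩ := h
  have := hv.gau hc
  rwa [EV, ← Eb_congr h1 fun a => h2 _ (hk a), ← h1] at this

theorem EV.geq (hv : EV T z q q') (h : Cfg.Geq z z') : EV T z' q q' := by
  obtain ⟨c, hc, rfl⟩ := h
  exact hv.gau hc

theorem par_of_map (α : K →ₐ[ℂ] E) {y y' : Pnt io K} (h : NZ y) (h' : NZ y')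
    (hP : Par (mapP α y) (mapP α y')) : Par y y' := by
  rw [← dl_eq_zero h h']
  rw [← dl_eq_zero ((nz_map α).2 h) ((nz_map α).2 h')] at hP
  funext x
  refine (map_eq_zero α).1 (Eq.trans ?_ (congrFun hP x))
  simp only [dl, wg_apply, vec, mapP, map_sub, map_mul]

/-! ### the divisor of the diagonal -/

section Dh

variable {p : LP K E}

theorem dh_nrm (hz : z.NZ) (V : RZ ℂ K) :
    dh ((z.gau (z.nrm V)).y q) ((z.gau (z.nrm V)).y q') = dh (z.y q) (z.y q') :=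
  dh_scl (hz q) (hz q') (nrm_ne V z q) (nrm_ne V z q')

theorem dl_ne {y y' : Pnt io K} {V : RZ ℂ K} (h : (dh y y').val V ≠ 1) : dl y y' ≠ 0 :=
  fun h0 => h (by rw [dh_eq, h0, sz_zero, neg_zero, val_zero])

theorem dl_red (hz : z.NZ) (p : LP K E) : dl ((z.red p.toPl).y q) ((z.red p.toPl).y q') =
    Hb.rv p (dl ((z.gau (z.nrm p.V)).y q) ((z.gau (z.nrm p.V)).y q')) :=
  (r_wg (Prim.int (prim_nrm p.V (hz q))) (Prim.int (prim_nrm p.V (hz q')))).symm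

theorem dl_red_eq_zero (hz : z.NZ) (hP : ¬Par (z.y q) (z.y q')) :
    dl ((z.red p.toPl).y q) ((z.red p.toPl).y q') = 0 ↔ p.V ∈ Sup (dh (z.y q) (z.y q')) := by
  have h := prim_nrm p.V (hz q)
  have h' := prim_nrm p.V (hz q')
  have h0 : dl ((z.gau (z.nrm p.V)).y q) ((z.gau (z.nrm p.V)).y q') ≠ 0 := fun h0 =>
    hP (((dl_eq_zero h.nz h'.nz).1 h0).geqN
      ((Cfg.geq_gau z (nrm_ne p.V z)).symm.geqN 0))
  rw [dl_red hz, rv_eq_zero (val_da h h') ((itg_iff (val_da h h')).2 (nm_dl_le _)), Sup,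
    Set.mem_ofPred_eq, ← dh_nrm hz p.V, val_dh h0, Ne, inv_eq_one, (nm_dl_le _).lt_iff_ne]

theorem par_of_sup (hz : z.NZ) (hp : p.V ∈ Sup (dh (z.y q) (z.y q'))) :
    Par ((z.red p.toPl).y q) ((z.red p.toPl).y q') :=
  (dl_eq_zero (hz.red _ q) (hz.red _ q')).1
    ((dl_red_eq_zero hz fun h => dl_ne hp ((dl_eq_zero (hz q) (hz q')).2 h)).2 hp)

theorem dh_red (hz : z.NZ) (hP : ¬Par (z.y q) (z.y q'))
    (hp : (dh (z.y q) (z.y q')).val p.V = 1) :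
    dh ((z.red p.toPl).y q) ((z.red p.toPl).y q') = p.res (dh (z.y q) (z.y q')) := by
  have h := prim_nrm p.V (hz q)
  have h' := prim_nrm p.V (hz q')
  have h0 : dl ((z.gau (z.nrm p.V)).y q) ((z.gau (z.nrm p.V)).y q') ≠ 0 := fun h0 =>
    hP (((dl_eq_zero h.nz h'.nz).1 h0).geqN
      ((Cfg.geq_gau z (nrm_ne p.V z)).symm.geqN 0))
  rw [← dh_nrm hz p.V] at hp ⊢
  have h1 := inv_eq_one.1 ((val_dh h0 _).symm.trans hp)
  rw [dh_eq ((z.gau (z.nrm p.V)).y q), Pl.res_neg (by rw [val_sz h0, h1]),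
    res_sz p.toPl (val_da h h') h1, ← da_red h h', dh_eq, dl_red hz]
  rfl

end Dh

/-! ### the three families -/

variable (B T) in
/-- the Chern polynomial of the tangent space of the target -/
def tF (z : Cfg io I K) (q : I) : PX B K := fun _ _ _ p => cT B T ((z.red p.toPl).y q)

variable (B) in
/-- the Chern polynomial of the tangent space of the ambient space -/
def pF (z : Cfg io I K) (q q' : I) : PX B K := fun _ _ _ p =>
  B.cp (da ((z.red p.toPl).y q) ((z.red p.toPl).y q'))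
    (TP ((z.red p.toPl).y q) ((z.red p.toPl).y q'))

variable (B T) in
/-- the Chern polynomial of the glued obstruction space -/
def jF (z : Cfg io I K) (q q' : I) : PX B K := fun _ _ _ p => cpz B T (jn (z.red p.toPl) q q')

variable (T) in
/-- the rank conditions at a node -/
structure Nd (z : Cfg io I K) (q q' : I) : Prop where
  rk : Rk T z
  ev : ∀ {E : Type} [Field E] [Algebra ℂ E] (p : LP K E), (z.red p.toPl).On T →
    EV T (z.red p.toPl) q q'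
  sep : ∀ {E : Type} [Field E] [Algebra ℂ E] (p : LP K E) (κ : J → ℕ),
    ∃ σ ∈ (z.red p.toPl).V κ, σ q ≠ 0 ∧ σ q' = 0

theorem livX_tF (hB : B.Ax) (hR : Rg T c) (hz : z.NZ) (q : I) :
    LivX B (Zon T z) (tF B T z q) :=
  livX_of hz 0 (cl_Zon hz) (fun _ _ _ w => cT B T (w.y q)) (fun _ _ _ w => w.On T)
    (fun _ _ _ _ hp => (mem_Zon hz).1 hp)
    (fun _ _ _ _ w w' h hw hO => ⟨h.on.1 hO, by
      obtain ⟨c, hc, e⟩ := geqN_y h
      rw [e, cT_scl hB (hw q) (h.on.1 hO q) (hc q)]⟩)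
    (fun _ _ _ _ _ _ _ _ α w hw hO => by
      rw [Cfg.map_y, ← redP_hom]
      exact cT_red hB hR _ (prim_hom α (hw q)) ((Cfg.on_map T α).1 hO q))
    fun _ _ _ _ _ _ _ _ _ r w _ _ hw hO _ => cT_red hB hR r (hw q) (hO q)

theorem livX_pF (hB : B.Ax) (hz : z.NZ) (q q' : I) :
    LivX B (Sup (dh (z.y q) (z.y q'))) (pF B z q q') :=
  livX_of hz 0 (cl_sup _) (fun _ _ _ w => B.cp (da (w.y q) (w.y q')) (TP (w.y q) (w.y q')))
    (fun _ _ _ w => Par (w.y q) (w.y q')) (fun _ _ _ _ hp => par_of_sup hz hp)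
    (fun _ _ _ _ w w' h hw hP => ⟨hP.geqN h.symm, by
      obtain ⟨c, hc, e⟩ := geqN_y h
      rw [e, e, cp_TP_scl hB (hw q) (hw q') (hc q) (hc q')]⟩)
    (fun _ _ _ _ _ _ _ _ α w hw hP => by
      rw [Cfg.map_y, Cfg.map_y, ← redP_hom, ← redP_hom]
      exact cp_TP_red hB _ (par_of_map α (hw q) (hw q') hP) (prim_hom α (hw q))
        (prim_hom α (hw q')))
    fun _ _ _ _ _ _ _ _ _ r w _ _ hw hP _ => cp_TP_red hB r hP (hw q) (hw q')

theorem cpz_jn_red0 (hB : B.Ax) (hR : Rg T c) [Algebra.EssFiniteType ℂ K]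
    [Algebra.EssFiniteType ℂ E] {p : LP K E} (hz : z.Pr p.V) (hO : z.On T)
    (hP : Par (z.y q) (z.y q')) (hE : (z.red0 p.toPl).Eb T = redS p.toPl (z.Eb T))
    (hv : EV T (z.red0 p.toPl) q q') : cpz B T (jn (z.red0 p.toPl) q q') =
      (cpz B T (jn z q q')).map (B.pb p : B.H K →+* B.H E) := by
  rw [cpz, cpz, hB.cp_rd (a := (jn z q q').ea T) (hz.val_ea T), rd_eq,
    Eb_jn_red p.lnr hP (hz q) (hz q') (hO q) (hR.red p.lnr (hz q) (hO q)) hE.symm hv]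
  exact congrArg (B.cp · _) (Cfg.ea_red0 T hz)

theorem Nd.livX (h : Nd T z q q') (hB : B.Ax) (hR : Rg T c) :
    LivX B (Zon T z ∩ Sup (dh (z.y q) (z.y q'))) (jF B T z q q') := by
  obtain ⟨N, hN⟩ := exists_bd T
  have hz := h.rk.nz
  exact livX_of hz N ((cl_Zon hz).inter (cl_sup _)) (fun _ _ _ w => cpz B T (jn w q q'))
    (fun _ _ _ w => w.On T ∧ Par (w.y q) (w.y q') ∧ EV T w q q')
    (fun _ _ _ p hp => ⟨(mem_Zon hz).1 hp.1, par_of_sup hz hp.2, h.ev p ((mem_Zon hz).1 hp.1)⟩)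
    (fun _ _ _ _ w w' h hw hG => ⟨⟨h.on.1 hG.1, hG.2.1.geqN h.symm, hG.2.2.geqN hN h.symm⟩,
      cpz_geqN hB hN (jn_geqN h) hw⟩)
    (fun _ _ _ _ _ _ _ _ α w hw hG => by
      rw [← Cfg.red0_hom] at hG ⊢
      exact cpz_jn_red0 hB hR (Cfg.pr_hom α hw) ((Cfg.on_map T α).1 (Cfg.red0_hom α w ▸ hG.1))
        (par_of_map α (hw q) (hw q') (by simpa only [Cfg.red0_hom, Cfg.map_y] using hG.2.1))
        (by rw [Cfg.red0_hom, Cfg.Eb_map, redS_hom]) hG.2.2)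
    fun _ _ _ _ _ _ _ _ p r w hp e hw hG hG' => cpz_jn_red0 hB hR hw hG.1 hG.2.1
      (by subst e; exact h.rk.eb p r ((mem_Zon hz).1 hp.1)) hG'.2.2

/-- the two filtrations along places -/
theorem Nd.mul (h : Nd T z q q') (hB : B.Ax) (hR : Rg T c) [Algebra.EssFiniteType ℂ E]
    {p : LP K E} (hO : (z.red p.toPl).On T) (hp : p.V ∈ Sup (dh (z.y q) (z.y q'))) :
    pF B z q q' E p * jF B T z q q' E p = cpF B T z E p * tF B T z q E p := by
  have hz := h.rk.nz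
  rw [mul_comm, mul_comm (cpF B T z E p)]
  exact cp_node hB hR (hz.red _) hO (par_of_sup hz hp) (h.ev p hO)
    (fun V => h.rk.eb p (LP.at V) hO) fun V =>
      (h.ev (p.comp (LP.at V)) (((Cfg.red_comp p (LP.at V) hz).on T).1
        (hO.red T (lnr_plV V) (hz.red _)))).geq (Cfg.red_comp p (LP.at V) hz)

/-- gluing commutes with reduction -/
theorem Nd.jn_red (h : Nd T z q q') {p : LP K E} (hp : p.V ∈ Sup (dh (z.y q) (z.y q')))
    (r : LP E L) :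
    (jn (z.red p.toPl) q q').red r.toPl = jn ((z.red p.toPl).red r.toPl) q q' := by
  have hz := h.rk.nz
  refine Cfg.ext (fun _ => rfl) fun κ => jn_red' (par_of_sup hz hp) (hz.red _ q) (hz.red _ q') ?_
  obtain ⟨σ, hσ, h1, h2⟩ := h.sep (p.comp r) κ
  obtain ⟨c, hc, e⟩ := Cfg.red_comp p r hz
  refine ⟨fun x => chr (c x) κ * σ x, e ▸ (mul_mem_gau hc).2 hσ,
    mul_ne_zero (chr_ne (hc q) κ) h1, by simp only [h2, mul_zero]⟩

/-! ### roots -/

theorem v_le_nm {P : Type} [Fintype P] {a : P → BD ℂ K} {V : RZ ℂ K} (ha : ∀ i, (a i).val V = 1)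
    (s : P → K) (i : P) : V.v (s i) ≤ nm a V s := by simpa only [ha, mul_one] using le_nm a V s i

section Root

variable (hB : B.Ax) [Algebra.EssFiniteType ℂ E] {p : LP K E}
include hB

theorem root_dh (hz : z.NZ) (hp : p.V ∈ Sup (dh (z.y q) (z.y q'))) {u : K}
    (hu : p.V.v u = (dh (z.y q) (z.y q')).val p.V) {U : Submodule E (Dg io → E)}
    (hU : (fun x => p.r (u * dl ((z.gau (z.nrm p.V)).y q) ((z.gau (z.nrm p.V)).y q') x)) ∈ U) :
    (B.cp (da ((z.red p.toPl).y q) ((z.red p.toPl).y q')) U).eval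
      (cf B (dh (z.y q) (z.y q')) E p) = 0 := by
  have h := prim_nrm p.V (hz q)
  have h' := prim_nrm p.V (hz q')
  have h0 := dl_ne (V := p.V) (by rw [dh_nrm hz p.V]; exact hp)
  have := eval_dir hB p (val_da h h') h0 (by rw [hu, ← dh_nrm hz p.V, val_dh h0]) hU
  rw [← da_red h h', ← dh_eq, dh_nrm hz] at this
  exact this

omit hB in
theorem int_dl (hz : z.NZ) (hp : p.V ∈ Sup (dh (z.y q) (z.y q'))) {u : K}
    (x : Dg io) : p.V.v (u * dl ((z.gau (z.nrm p.V)).y q) ((z.gau (z.nrm p.V)).y q') x) ≤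
      p.V.v u / (dh (z.y q) (z.y q')).val p.V := by
  have h0 := dl_ne (V := p.V) (by rw [dh_nrm hz p.V]; exact hp)
  rw [← dh_nrm hz p.V, val_dh h0, div_inv_eq_mul, map_mul]
  exact mul_le_mul_right (v_le_nm (val_da (prim_nrm p.V (hz q)) (prim_nrm p.V (hz q'))) _ x) _

omit hB in
theorem int_sv (hz : z.NZ) (hO : ¬z.On T) {u : K} (x : A × I) :
    p.V.v (u * (z.gau (z.nrm p.V)).sv T x) ≤ p.V.v u / (z.dv T).val p.V := by
  rw [← Cfg.dv_gau T hz (nrm_ne p.V z), Cfg.val_dv T (mt (Cfg.on_gau T (nrm_ne p.V z)).1 hO),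
    div_inv_eq_mul, map_mul]
  exact mul_le_mul_right (v_le_nm ((Cfg.pr_nrm hz p.V).val_ea T) _ x) _

/-- the class of the diagonal divisor is a root for the ambient tangent space -/
theorem root_pF (hz : z.NZ) (hp : p.V ∈ Sup (dh (z.y q) (z.y q'))) :
    (pF B z q q' E p).eval (cf B (dh (z.y q) (z.y q')) E p) = 0 := by
  refine root_dh hB hz hp (v_gen _ _) ?_
  have h' := prim_nrm p.V (hz q')
  obtain ⟨l, hl⟩ := exists_int_wg h' ((dh (z.y q) (z.y q')).gen p.V • vec ((z.gau (z.nrm p.V)).y q))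
    (γ := 1) fun x => by
      rw [map_smul]
      exact (int_dl hz hp x).trans_eq (by rw [v_gen, div_self (val_ne _ _)])
  have := r_wg (p := p.toPl) (fun v => RZ.le_one_iff.1 (hl v)) (Prim.int h')
  rw [wg_sub_vsc, map_smul] at this
  exact (mem_TP (par_of_sup hz hp)).2 ⟨_, this.symm⟩

omit hB in
theorem Nd.dir (h : Nd T z q q') (hO : ¬z.On T) (hp : p.V ∈ Sup (dh (z.y q) (z.y q')))
    (hD : p.V ∈ Sup (z.dv T)) {u : K} (h0 : 1 < p.V.v u) (h1 : p.V.v u ≤ (z.dv T).val p.V)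
    (h2 : p.V.v u ≤ (dh (z.y q) (z.y q')).val p.V) :
    (fun x => p.r (u * sd T (z.gau (z.nrm p.V)) q q' x)) ∈ EE T (z.red p.toPl) q q' := by
  have hz := h.rk.nz
  have h3 : ∀ x, u * (z.gau (z.nrm p.V)).sv T x ∈ p.V.1 := fun x =>
    RZ.le_one_iff.1 ((int_sv hz hO x).trans ((div_le_one₀ (val_pos _ _)).2 h1))
  refine sd_mem_EE p.lnr (prim_nrm p.V (hz q)) (prim_nrm p.V (hz q')) h0 ?_
    (h.rk.sv p (Cfg.on_red_of T p.lnr hz hD) u h3)
  rintro (x | x)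
  · exact h3 x
  · exact RZ.le_one_iff.1 ((int_dl hz hp x).trans ((div_le_one₀ (val_pos _ _)).2 h2))

/-- where the diagonal divisor is the smaller one, its class is a root for `T_Y` -/
theorem Nd.root_tF (h : Nd T z q q') (hO : ¬z.On T) (hp : p.V ∈ Sup (dh (z.y q) (z.y q')))
    (hlt : (dh (z.y q) (z.y q')).val p.V < (z.dv T).val p.V) :
    (tF B T z q E p).eval (cf B (dh (z.y q) (z.y q')) E p) = 0 := by
  have hz := h.rk.nz
  have h1 : 1 < (dh (z.y q) (z.y q')).val p.V := lt_of_le_of_ne (dh_nonneg _ _ p.V) (Ne.symm hp)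
  have hD : p.V ∈ Sup (z.dv T) := (h1.trans hlt).ne'
  have hu := v_gen (dh (z.y q) (z.y q')) p.V
  have h2 := h.dir hO hp hD (hu ▸ h1) (hu ▸ hlt.le) hu.le
  have h3 := ker_pl_EE.le ⟨h2, LinearMap.mem_ker.2 (funext fun x => (Pl.r_eq_zero
    (RZ.le_one_iff.1 ((int_sv hz hO x).trans ((div_le_one₀ (val_pos _ _)).2 (hu ▸ hlt.le))))).2
    ((int_sv hz hO x).trans_lt ((div_lt_one₀ (val_pos _ _)).2 (hu ▸ hlt))))⟩
  obtain ⟨w, hw, e⟩ := h3
  rw [tF, ← cp_TY hB (par_of_sup hz hp) (hz.red _ q') (Cfg.on_red_of T p.lnr hz hD q)]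
  refine root_dh hB hz hp hu ?_
  exact (funext fun x => congrFun e (Sum.inr x) : w = _) ▸ hw

/-- where the divisor of the equations is the smaller one, its class is a root for the glued
obstruction space -/
theorem Nd.root_jF (h : Nd T z q q') (hD : p.V ∈ Sup (z.dv T))
    (hlt : (z.dv T).val p.V < (dh (z.y q) (z.y q')).val p.V) :
    (jF B T z q q' E p).eval (cf B (z.dv T) E p) = 0 := by
  have hz := h.rk.nz
  have hO : ¬z.On T := fun h0 => hD (by rw [Cfg.dv_of_on T h0, val_zero])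
  have h1 : 1 < (z.dv T).val p.V := lt_of_le_of_ne (Cfg.dv_nonneg T hz p.V) (Ne.symm hD)
  have hp : p.V ∈ Sup (dh (z.y q) (z.y q')) := (h1.trans hlt).ne'
  have hu := v_gen (z.dv T) p.V
  have h2 := h.dir hO hp hD (hu ▸ h1) hu.le (hu ▸ hlt.le)
  have h3 := (ker_pr_EE (par_of_sup hz hp) (hz.red _ q') (Cfg.on_red_of T p.lnr hz hD q)).le
    ⟨h2, LinearMap.mem_ker.2 (funext fun x => (Pl.r_eq_zero
    (RZ.le_one_iff.1 ((int_dl hz hp x).trans ((div_le_one₀ (val_pos _ _)).2 (hu ▸ hlt.le))))).2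
    ((int_dl hz hp x).trans_lt ((div_lt_one₀ (val_pos _ _)).2 (hu ▸ hlt))))⟩
  obtain ⟨w, hw, e⟩ := h3
  have hP := Cfg.pr_nrm hz p.V
  have hO' := mt (Cfg.on_gau T (nrm_ne p.V z)).1 hO
  have hd := Cfg.dv_gau T hz (nrm_ne p.V z)
  have := eval_dir hB p (hP.val_ea T) (mt (Cfg.on_iff T).2 hO')
    (by rw [hu, ← hd, Cfg.val_dv T hO']) (U := (jn (z.red p.toPl) q q').Eb T)
    ((funext fun x => congrFun e (Sum.inl x) : w = _) ▸ hw)
  rw [← Cfg.ea_red0 T hP, ← Cfg.dv, hd] at this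
  exact this

end Root

end Crest.Agent.X262.Node22
end
end

-- ▼ part X262/Node22/Node
section

/-!
# Row 262, road B (helper22): the two filtrations of `EE` give `Wd54.NodeStmt`
-/

set_option autoImplicit false
set_option linter.unusedSectionVars false

noncomputable section

namespace Crest.Agent.X262.Node22

open Crest.Agent.X277 Crest.Agent.X277.BD Crest.Agent.X277.Pst Crest.Agent.X277.BD.Cyc
open Crest.Agent.X262.Vb Crest.Agent.X262.Hb Polynomial Module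
open Crest.Agent.X262.Geo (od essFT_Rf)
open Crest.Agent.X262.Sym65 (PF PX Liv LivX Sup Cl cf cl_sup sup_inf sm i1 i2 qv TwoStmt i1_cf
  mem_sup)
open Crest.Agent.X262.Wd54 (vrd ful om NodeStmt)

variable {J : Type} [Fintype J] [DecidableEq J] {io : J → Type} [∀ j, Fintype (io j)]
  [∀ j, DecidableEq (io j)] {A : Type} [Fintype A] {K E : Type} [Field K] [Algebra ℂ K]
  [Field E] [Algebra ℂ E] {I I₁ I₂ M : Type} [Fintype I] [Fintype I₁] [Fintype I₂]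
  {B : Th} {T : Tgt io A} {c : ℕ} {z : Cfg io I K} {q q' : I} {m : M → I} {Φ : MFam B io M}

theorem eval_sub_eval {R : Type*} [CommRing R] (f : R[X]) (x : R) :
    f.eval 0 - f.eval x = x * (-f.divX).eval x := by
  conv_lhs => rw [← X_mul_divX_add f]
  simp only [eval_add, eval_mul, eval_X, eval_C, eval_neg]
  ring

theorem mul_ap (φ ψ : PF B K) (p : LP K E) : (φ * ψ) E p = φ E p * ψ E p := rfl

theorem zero_ap (p : LP K E) : (0 : PF B K) E p = 0 := rfl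

theorem mul_apX (φ ψ : PX B K) (p : LP K E) : (φ * ψ) E p = φ E p * ψ E p := rfl

section Abs

variable [Algebra.EssFiniteType ℂ K] (hB : B.Ax) (hR : Rg T c) (h : Nd T z q q')
  (hΦ : MCls B T Φ) (hO : ¬z.On T) (hP : ¬Par (z.y q) (z.y q'))
include hB hR h hΦ hO hP

open Classical in
/-- the first filtration: the class of the diagonal -/
theorem Nd.left : vrd B T z m Φ q q' = sm (z.dv T) fun V =>
    if (dh (z.y q) (z.y q')).val V = 1 then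
      sm ((plV V).res (dh (z.y q) (z.y q'))) (i2 (qv (cpF B T z) (cf B (z.dv T)) *
        qv (tF B T z q) (cf B (dh (z.y q) (z.y q'))) * evF z m Φ) V)
    else i1 (qv (cpF B T z) (cf B (z.dv T)) * Sym65.pv (tF B T z q) 0 * evF z m Φ) V := by
  have hz := h.rk.nz
  refine Vb.sm_congr (a := z.dv T) fun V hV hD => ?_
  have := essFT_Rf hV
  split_ifs with h1
  · rw [← i1_cf hB ((((h.rk.livX hB).qv (Liv.cf hB _)).mul
      ((livX_tF hB hR hz q).qv (Liv.cf hB _))).mul (liv_evF hΦ hz m)) hV (sup_sub hz hD) h1, i1]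
    congr 1
    have h2 : ¬wdg ((z.red (plV V)).y q) ((z.red (plV V)).y q') = 0 :=
      mt (dl_red_eq_zero (p := LP.at V) hz hP).1 (not_not.2 h1)
    have h3 : B.c1 (dh ((z.red (plV V)).y q) ((z.red (plV V)).y q')) =
        cf B (dh (z.y q) (z.y q')) _ (LP.at V) :=
      (congrArg B.c1 (dh_red (p := LP.at V) hz hP h1)).trans (hB.pb_c1_res (LP.at V) h1).symm
    rw [trm_eq, dgc, if_neg h2, eval_sub_eval, h3]
    simp only [mul_ap, qv, tF, LP.at_toPl]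
    ring
  · rw [i1]
    congr 1
    have h2 : wdg ((z.red (plV V)).y q) ((z.red (plV V)).y q') = 0 :=
      (dl_red_eq_zero (p := LP.at V) hz hP).2 h1
    rw [trm_eq, dgc, if_pos h2, sub_zero]
    simp only [mul_ap, Sym65.pv, tF, zero_ap, LP.at_toPl]
    ring

open Classical in
/-- the second filtration: the glued configurations -/
theorem Nd.right : (sm (dh (z.y q) (z.y q')) fun V =>
    if (z.dv T).val V = 1 then
      sm ((plV V).res (z.dv T)) (i2 (qv (pF B z q q') (cf B (dh (z.y q) (z.y q'))) *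
        qv (jF B T z q q') (cf B (z.dv T)) * evF z m Φ) V)
    else i1 (qv (pF B z q q') (cf B (dh (z.y q) (z.y q'))) * Sym65.pv (jF B T z q q') 0 *
      evF z m Φ) V) = ∑ᶠ (V : RZ ℂ K) (_ : Dvs V), od V (dh (z.y q) (z.y q')) *
        ful B T (jn (z.red (plV V)) q q') m Φ (om B (z.y q) (z.y q') V) := by
  have hz := h.rk.nz
  refine Vb.sm_congr (a := dh (z.y q) (z.y q')) fun V hV hH => ?_
  have := essFT_Rf hV
  have h0 : (jn (z.red (plV V)) q q').On T ↔ (z.dv T).val V ≠ 1 :=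
    Cfg.on_red_iff T (lnr_plV V) hz hO
  rw [ful]
  split_ifs with h1 h2 h2
  · exact absurd h1 (h0.1 h2)
  · have h3 : (jn (z.red (plV V)) q q').dv T = (plV V).res (z.dv T) :=
      Cfg.dv_red T (lnr_plV V) hz h2
    rw [← h3]
    refine Vb.sm_congr (a := (jn (z.red (plV V)) q q').dv T) fun W hW hD => ?_
    have := essFT_Rf hW
    rw [i2]
    congr 1
    have h4 : ((z.red (plV V)).red (plV W)).On T :=
      on_at (z := jn (z.red (plV V)) q q') (hz.red _) hD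
    have h5 := Cfg.red_comp (LP.at V) (LP.at W) hz
    have h6 := ((livX_pF hB hz q q').qv (Liv.cf hB (dh (z.y q) (z.y q')))).nat _ _ (LP.at V)
      (LP.at W) hH
    have h7 : jF B T z q q' _ ((LP.at V).comp (LP.at W)) =
        cpz B T ((jn (z.red (plV V)) q q').red (plV W)) := by
      obtain ⟨N, hN⟩ := exists_bd T
      rw [show (jn (z.red (plV V)) q q').red (plV W) = _ from
        h.jn_red (p := LP.at V) hH (LP.at W)]
      exact (cpz_geqN hB hN (jn_geqN (h5.geqN N)) (hz.red _)).symm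
    have h8 : cf B (z.dv T) _ ((LP.at V).comp (LP.at W)) =
        B.pb (LP.at W) (B.c1 ((jn (z.red (plV V)) q q').dv T)) := by
      rw [h3, cf, hB.pb_comp, hB.pb_c1_res (LP.at V) h1]
      rfl
    have h9 : evF z m Φ _ ((LP.at V).comp (LP.at W)) =
        Φ _ fun x => ((jn (z.red (plV V)) q q').red (plV W)).y (m x) :=
      (hΦ.geq h5 (hz.red _) ((h5.on T).1 h4)).symm
    rw [mul_ap, mul_ap, h6, h9, qv, qv, h7, h8, mul_assoc]
    rfl
  · rw [i1, ← mul_assoc]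
    rfl
  · exact absurd (h0.2 h1) h2

/-- **NODE** for a family with the rank conditions -/
theorem Nd.node (hT : TwoStmt) : vrd B T z m Φ q q' =
    ∑ᶠ (V : RZ ℂ K) (_ : Dvs V), od V (dh (z.y q) (z.y q')) *
      ful B T (jn (z.red (plV V)) q q') m Φ (om B (z.y q) (z.y q') V) := by
  have hz := h.rk.nz
  have hD := Cfg.dv_nonneg T hz
  have hH := dh_nonneg (z.y q) (z.y q')
  have s1 : Sup (z.dv T ⊓ dh (z.y q) (z.y q')) ⊆ Zon T z := fun V hV =>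
    sup_sub hz (sup_inf hD hH ▸ hV).1
  have s2 : Sup (z.dv T ⊓ dh (z.y q) (z.y q')) ⊆ Sup (dh (z.y q) (z.y q')) := fun V hV =>
    (sup_inf hD hH ▸ hV).2
  have t1 := hT B hB _ _ _ _ _ hD hH ((h.rk.livX hB).mono s1) ((livX_tF hB hR hz q).mono s1)
    ((liv_evF hΦ hz m).mono s1)
    (fun _ _ _ _ p hp => h.rk.root hB hO ((mem_Zon hz).1 (s1 hp)))
    fun _ _ _ _ p hp hlt => h.root_tF hB hO hp hlt
  rw [inf_comm] at s1 s2
  have t2 := hT B hB _ _ _ _ _ hH hD ((livX_pF hB hz q q').mono s2)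
    ((h.livX hB hR).mono (Set.subset_inter s1 s2)) ((liv_evF hΦ hz m).mono s1)
    (fun _ _ _ _ p hp => root_pF hB hz (s2 hp)) fun _ _ _ _ p hp hlt => h.root_jF hB hp hlt
  rw [h.left hB hR hΦ hO hP, ← t1, ← h.right hB hR hΦ hO hP, ← t2, inf_comm]
  refine Vb.sm_congr fun V hV hG => ?_
  have := essFT_Rf hV
  simp only [i1, mul_ap, mul_apX, qv]
  rw [h.mul hB hR (p := LP.at V) (s1 hG) (s2 hG)]

end Abs

theorem exists_mh {y : Pnt io E} (h : NZ y) (κ : J → ℕ) : ∃ F, MH F κ ∧ pv y F ≠ 0 := by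
  choose i hi using h
  refine ⟨∏ j, MvPolynomial.X ⟨j, i j⟩ ^ κ j, ?_, ?_⟩
  · have := MvPolynomial.IsWeightedHomogeneous.prod (R := ℂ) Finset.univ
      (fun j => MvPolynomial.X (⟨j, i j⟩ : Vr io) ^ κ j) (fun j => κ j • (Pi.single j 1 : J → ℕ))
      (w := fun v : Vr io => (Pi.single v.1 1 : J → ℕ)) fun j _ =>
      (MvPolynomial.isWeightedHomogeneous_X ℂ _ _).pow _
    rwa [show ∑ j, κ j • (Pi.single j 1 : J → ℕ) = κ from
      funext fun j => by simp [Finset.sum_apply, Pi.single_apply]] at this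
  · simp only [pv, map_prod, map_pow, MvPolynomial.aeval_X]
    exact Finset.prod_ne_zero_iff.2 fun j _ => pow_ne_zero _ (hi j)

theorem exists_ne_red {d : J → ℕ} (ξ : Dat io d I K) (p : LP K E) (κ : J → ℕ) (q : I) :
    ∃ σ ∈ (ξ.cfg.red p.toPl).V κ, σ q ≠ 0 := by
  obtain ⟨F, hF, h⟩ := exists_mh ((Tree87.nz_cfg ξ).red p.toPl q) κ
  have h1 := fun x j => (Cfg.pr_nrm (Tree87.nz_cfg ξ) p.V x j).1
  refine ⟨_, mem_redS (Tree87.pv_mem_gau hF (Tree87.pv_mem_cfg ξ hF) (ξ.cfg.nrm p.V))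
    fun x => pv_mem (h1 x) F, ?_⟩
  exact (r_pv p.lnr (h1 q) F).trans_ne h

/-- a pair of normed data satisfies the rank conditions -/
theorem exists_nd (hS : Smo T c) (d₁ d₂ : J → ℕ) : ∃ N : ℕ, ∀ {I₁ I₂ L : Type} [Fintype I₁]
    [Fintype I₂] [Field L] [Algebra ℂ L] (η₁ : Dat io d₁ I₁ L) (η₂ : Dat io d₂ I₂ L) (q₁ : I₁)
    (q₂ : I₂), η₁.NrmUp N → η₂.NrmUp N → Nd T (pair η₁.cfg η₂.cfg) (.inl q₁) (.inr q₂) := by
  obtain ⟨N₁, h₁⟩ := rk_of Tree87.rankStmt (hS.good d₁)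
  obtain ⟨N₂, h₂⟩ := rk_of Tree87.rankStmt (hS.good d₂)
  obtain ⟨-, S, hG⟩ := hS.good d₁
  obtain ⟨N₃, h₃⟩ := Tree87.exists_big S
  refine ⟨max N₁ (max N₂ N₃), fun η₁ η₂ q₁ q₂ n₁ n₂ => ⟨rk_pair
    (h₁ η₁ (Tree87.nz_cfg _) fun κ hκ => n₁ κ fun j => (hκ j).trans (le_max_left _ _))
    (h₂ η₂ (Tree87.nz_cfg _) fun κ hκ => n₂ κ fun j =>
      (hκ j).trans ((le_max_left _ _).trans (le_max_right _ _))), fun p hO => ?_, fun p κ => ?_⟩⟩
  · rw [pair_red] at hO ⊢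
    refine ev_pair q₂ fun n hn => ?_
    obtain ⟨σ, h1, h2⟩ := (Bub96.tl_red n₁ p.toPl).ev hG
      (h₃ _ ((le_max_right _ _).trans (le_max_right _ _))) (on_pair.1 hO).1 q₁ hn
    exact ⟨σ, h1, funext h2⟩
  · rw [pair_red]
    obtain ⟨σ, h1, h2⟩ := exists_ne_red η₁ p κ q₁
    exact ⟨Sum.elim σ 0, mem_pair.2 ⟨h1, zero_mem _⟩, h2, rfl⟩

/-- **NODE** -/
theorem nodeStmt_of (hT : TwoStmt) : NodeStmt := by
  intro B hB J _ _ io _ _ A _ T c hS d₁ d₂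
  obtain ⟨N, hN⟩ := exists_nd hS d₁ d₂
  exact ⟨N, fun η₁ η₂ q₁ q₂ m Φ hΦ n₁ n₂ hO hP =>
    (hN η₁ η₂ q₁ q₂ n₁ n₂).node hB (rg_of_smo hS) hΦ hO hP hT⟩

end Crest.Agent.X262.Node22
end
end

-- ▼ part X262/Gen42/Red
section

/-!
# Row 262, GEN (helper42), part 2: a datum with good reduction to two lines

* `mem_cfg`, `mul_cfg`, `nrm_gam`, `np_cfg` : the configuration of a datum;
* `pair_map`, `jn_map`, `gl_map`, `mem_gl` : the glued configuration;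
* `Gd` : good reduction; `Gd.mem_red` : the reduced spaces of sections; `Gd.lat` : the reduced
  configuration and the glued configuration have a common norming refinement.
-/

set_option autoImplicit false
set_option linter.unusedSectionVars false

noncomputable section

namespace Crest.Agent.X262.Gen42

open Crest.Agent.X277 Crest.Agent.X277.BD Crest.Agent.X262.Vb Crest.Agent.X262.Drop30 Polynomial
open Crest.Agent.X277.BD.Cyc (Rf plV surj_plV)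
open Crest.Agent.X262.Bub96 (hv)
open Crest.Agent.X262.Bub96.Tr (dot)
open Crest.Agent.X262.Node22 (scl chr chr_ne Par pair jn mem_jn mem_pair)
open Crest.Agent.X262.Wd54 (NP GeqN Lat)

variable {J : Type} [Fintype J] [DecidableEq J] {io : J → Type} [∀ j, Fintype (io j)]
  [∀ j, DecidableEq (io j)] {K E : Type} [Field K] [Algebra ℂ K] [Field E] [Algebra ℂ E]
  {d m n κ : J → ℕ} {I I' I₁ I₂ M : Type} [Fintype I] [Fintype I'] [Fintype I₁] [Fintype I₂]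
  {N : ℕ}

section Dat

variable {ξ : Dat io d I K}

theorem mem_cfg {w : I → K} : w ∈ ξ.cfg.V κ ↔
    ∃ σ : K[X], σ.natDegree ≤ dot κ d ∧ (fun q => hv (dot κ d) σ (ξ.x q)) = w :=
  exists_congr fun _ => and_congr_left fun _ =>
    mem_degreeLE.trans natDegree_le_iff_degree_le.symm

theorem mul_cfg (ξ : Dat io d I K) : ξ.cfg.Mul where
  one := mem_cfg.2 ⟨1, by simp, _root_.funext fun q => by cases ξ.x q <;> simp [dot]⟩
  crd j i := by
    have h : dot (Pi.single j 1) d = d j := by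
      rw [dot, Finset.sum_eq_single j (fun j' _ hj => by simp [hj]) (by simp)]
      simp
    exact mem_cfg.2 ⟨ξ.f j i, h ▸ ξ.cp.1 j i, h ▸ rfl⟩
  mul κ κ' u u' hu hu' := by
    obtain ⟨σ, h1, rfl⟩ := mem_cfg.1 hu
    obtain ⟨σ', h2, rfl⟩ := mem_cfg.1 hu'
    have h : dot (κ + κ') d = dot κ d + dot κ' d := by
      simp [dot, add_mul, Finset.sum_add_distrib]
    exact mem_cfg.2 ⟨σ * σ', h ▸ natDegree_mul_le.trans (add_le_add h1 h2),
      h ▸ _root_.funext fun q => hv_mul h1 h2 _⟩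

theorem nz_cfg (ξ : Dat io d I K) : ξ.cfg.NZ := fun _ => Vb37.nz_pt ξ _

omit [Fintype I] in
theorem nrm_gam (h : ξ.Nrm κ) (W : RZ ℂ K) (γ : W.1.ValueGroup) {σ : K[X]}
    (hσ : σ.natDegree ≤ dot κ d)
    (hq : ∀ q, W.v (hv (dot κ d) σ (ξ.x q)) ≤ γ * (lw κ (ξ.pt (ξ.x q))).val W) (t : Option K) :
    W.v (hv (dot κ d) σ t) ≤ γ * (lw κ (ξ.pt t)).val W := by
  obtain ⟨c, rfl⟩ := W.exists_v γ
  rcases eq_or_ne c 0 with rfl | hc
  · rw [Bub96.nrm_inj h hσ fun q => by simpa using hq q]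
    cases t <;> simp
  have key : ∀ t, W.v (hv (dot κ d) (C c⁻¹ * σ) t) ≤ (lw κ (ξ.pt t)).val W ↔
      W.v (hv (dot κ d) σ t) ≤ W.v c * (lw κ (ξ.pt t)).val W := fun t => by
    rw [hv_C_mul, map_mul, map_inv₀, inv_mul_le_iff₀ (RZ.pos hc)]
  have h1 := h K (AlgHom.id ℂ K) W _ ((natDegree_C_mul_le c⁻¹ σ).trans hσ)
  rw [Vb37.dmap_id] at h1
  exact (key t).1 (h1 (fun q => (key _).2 (hq q)) t)

theorem np_cfg {g : I' → I} (h : (ξ.res g).NrmUp N) : NP N ξ.cfg g := by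
  intro κ hκ σ hσ W γ h1 q
  obtain ⟨τ, hτ, rfl⟩ := mem_cfg.1 hσ
  exact nrm_gam (h κ hκ) W γ hτ h1 _

end Dat

section Cfg

variable {z z₀ w : Cfg io I E}

theorem geqN_of (hy : z₀.y = w.y) (hV : ∀ κ : J → ℕ, (∀ j, κ j ≤ N) → z₀.V κ = w.V κ)
    (h : Cfg.Geq z₀ z) : GeqN N w z := by
  obtain ⟨c, hc, rfl⟩ := h
  exact ⟨c, hc, _root_.funext fun q => by rw [Cfg.gau_y, Cfg.gau_y, hy], fun κ hκ => by
    rw [Cfg.gau_V, Cfg.gau_V, hV κ hκ]⟩

theorem lat_geq {z' : Cfg io I' E} {g : M → I} {g' : M → I'} (h : Lat N z₀ g z' g')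
    (h' : Cfg.Geq z₀ z) : Lat N z g z' g' := by
  obtain ⟨Q, _, w, e, e', h1, h2, h3, h4, ⟨c, hc, hy, hV⟩, h5, h6⟩ := h
  refine ⟨Q, inferInstance, w, e, e', h1, h2, h3, h4, ?_, h5, fun q => Par.trans ?_ (h6 q)⟩
  · obtain ⟨c', hc', hy', hV'⟩ := geqN_of hy hV h'
    rw [Cfg.gau_gau] at hy' hV'
    exact ⟨_, fun q j => mul_ne_zero (hc' q j) (hc q j), hy', hV'⟩
  · obtain ⟨c', hc', rfl⟩ := h'
    exact ⟨_, hc' _, rfl⟩

theorem sep (α : K →ₐ[ℂ] E) {x : E}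
    (h : ∀ φ : E →+ K, (∀ c x, φ (α c * x) = c * φ x) → φ x = 0) : x = 0 := by
  have h1 : (fun _ : Unit => x) ∈ mapS α (⊥ : Submodule K (Unit → K)) :=
    (mem_mapS_iff α).2 fun φ hφ => _root_.funext fun _ => h φ hφ
  have h2 : mapS α (⊥ : Submodule K (Unit → K)) ≤ ⊥ := mapS_le fun u hu =>
    _root_.funext fun x => (congrArg α (congrFun hu x)).trans (map_zero α)
  exact congrFun (h2 h1) ()

theorem pair_map (α : K →ₐ[ℂ] E) (z₁ : Cfg io I₁ K) (z₂ : Cfg io I₂ K) :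
    (pair z₁ z₂).map α = pair (z₁.map α) (z₂.map α) :=
  Cfg.ext (by rintro (q | q) <;> rfl) fun κ => by
    change mapS α (_ ⊓ _) = _
    rw [mapS_inf, mapS_comap, mapS_comap]
    rfl

theorem jn_map (α : K →ₐ[ℂ] E) {z : Cfg io I K} {q q' : I} (h : Par (z.y q) (z.y q'))
    (h' : NZ (z.y q')) : (jn z q q').map α = jn (z.map α) q q' := by
  obtain ⟨c, -, h⟩ := h
  refine Cfg.ext (fun _ => rfl) fun κ => ?_
  have h1 : chr (fun j => α (c j)) κ = α (chr c κ) := by simp [chr]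
  ext w
  rw [mem_jn (z := z.map α) (c := fun j => α (c j))
    (by rw [Cfg.map_y, h]; funext j i; exact map_mul α _ _) ((nz_map α).2 h'), h1]
  change w ∈ mapS α _ ↔ w ∈ mapS α _ ∧ _
  simp only [mem_mapS_iff, mem_jn h h']
  refine ⟨fun H => ⟨fun φ hφ => (H φ hφ).1, sub_eq_zero.1 (sep α fun φ hφ => ?_)⟩,
    fun H φ hφ => ⟨H.1 φ hφ, by rw [H.2, hφ]⟩⟩
  rw [map_sub, hφ, (H φ hφ).2, sub_self]

theorem gl_map (α : K →ₐ[ℂ] E) {ξ₁ : Dat io m I₁ K} {ξ₂ : Dat io n I₂ K} {n₁ : I₁} {n₂ : I₂}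
    (h : Par (ξ₁.pt (ξ₁.x n₁)) (ξ₂.pt (ξ₂.x n₂))) :
    (gl ξ₁ n₁ ξ₂ n₂).map α = gl (ξ₁.map α) n₁ (ξ₂.map α) n₂ := by
  rw [gl, jn_map α h (Vb37.nz_pt _ _), pair_map, gl, Vb37.cfg_map, Vb37.cfg_map]

/-- the values of glued pairs of forms at the points `u` -/
def Vl (m n κ : J → ℕ) (u : I → Option E ⊕ Option E) (w : I → E) : Prop :=
  ∃ τ₁ τ₂ : E[X], τ₁.natDegree ≤ dot κ m ∧ τ₂.natDegree ≤ dot κ n ∧
    τ₁.coeff (dot κ m) = τ₂.coeff 0 ∧
    (fun q => (u q).elim (hv (dot κ m) τ₁) (hv (dot κ n) τ₂)) = w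

theorem mem_gl {ζ₁ : Dat io m I₁ E} {ζ₂ : Dat io n I₂ E} {n₁ : I₁} {n₂ : I₂}
    (h₁ : ζ₁.x n₁ = none) (h₂ : ζ₂.x n₂ = some 0) (h : ζ₁.pt none = ζ₂.pt (some 0))
    {w : I₁ ⊕ I₂ → E} : w ∈ (gl ζ₁ n₁ ζ₂ n₂).V κ ↔ Vl m n κ (Sum.map ζ₁.x ζ₂.x) w := by
  rw [gl, mem_jn (c := 1) (by
    change ζ₁.pt (ζ₁.x n₁) = scl 1 (ζ₂.pt (ζ₂.x n₂))
    rw [h₁, h₂, h, Node22.scl_one]) (Vb37.nz_pt _ _), mem_pair, mem_cfg, mem_cfg, Node22.chr_one,
    one_mul]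
  constructor
  · rintro ⟨⟨⟨τ₁, h1, h2⟩, τ₂, h3, h4⟩, h5⟩
    refine ⟨τ₁, τ₂, h1, h3, ?_, _root_.funext ?_⟩
    · rwa [← congrFun h2 n₁, ← congrFun h4 n₂, h₁, h₂, hv_some, ← coeff_zero_eq_eval_zero] at h5
    · rintro (q | q)
      exacts [congrFun h2 q, congrFun h4 q]
  · rintro ⟨τ₁, τ₂, h1, h2, h3, rfl⟩
    refine ⟨⟨⟨τ₁, h1, rfl⟩, τ₂, h2, rfl⟩, ?_⟩
    change hv _ τ₁ (ζ₁.x n₁) = hv _ τ₂ (ζ₂.x n₂)
    rwa [h₁, h₂, hv_some, ← coeff_zero_eq_eval_zero]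

end Cfg

/-- good reduction to two lines -/
structure Gd (p : Pl ℂ K ℂ E) (a t ρ : K) (s : J → K) (ξ : Dat io d I K) (ζ₁ : Dat io m I₁ E)
    (ζ₂ : Dat io n I₂ E) : Prop where
  rd : Rd p t ρ
  add : ∀ j, m j + n j = d j
  ne : ∀ j, s j ≠ 0
  f₁ : ∀ j i, PR p (g1 a t (m j) (C (s j) * ξ.f j i)) (ζ₁.f j i)
  f₂ : ∀ j i, PR p (g2 a ρ (m j) (C (s j) * ξ.f j i)) (ζ₂.f j i)

/-- the comparison scalars -/
def cf (m n : J → ℕ) (s : J → K) (b₁ b₂ : K) : J → K := fun j => b₁ ^ m j * b₂ ^ n j * s j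

theorem chr_cf (m n κ : J → ℕ) (s : J → K) (b₁ b₂ : K) :
    chr (cf m n s b₁ b₂) κ = b₁ ^ dot κ m * b₂ ^ dot κ n * chr s κ := by
  simp only [chr, cf, mul_pow, Finset.prod_mul_distrib, dot, ← pow_mul, Finset.prod_pow_eq_pow_sum,
    mul_comm (κ _)]

namespace Gd

variable {p : Pl ℂ K ℂ E} {a t ρ b₁ b₂ : K} {s : J → K} {ξ : Dat io d I K} {ζ₁ : Dat io m I₁ E}
  {ζ₂ : Dat io n I₂ E} {y : Option K} {u : Option E ⊕ Option E}
  (h : Gd p a t ρ s ξ ζ₁ ζ₂)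
include h

theorem node : ζ₁.pt none = ζ₂.pt (some 0) := _root_.funext fun j => _root_.funext fun i =>
  (h.rd.node (h.f₁ j i) (h.f₂ j i)).trans (coeff_zero_eq_eval_zero _)

theorem dot_eq (κ : J → ℕ) : dot κ d = dot κ m + dot κ n := by
  simp only [dot, ← h.add, mul_add, Finset.sum_add_distrib]

theorem cf_ne (hM : Mt p a t ρ y b₁ b₂ u) (j : J) : cf m n s b₁ b₂ j ≠ 0 :=
  mul_ne_zero (mul_ne_zero (pow_ne_zero _ hM.1) (pow_ne_zero _ hM.2.1)) (h.ne j)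

theorem pt (hM : Mt p a t ρ y b₁ b₂ u) (j : J) (i : io j) :
    scl (cf m n s b₁ b₂) (ξ.pt y) j i ∈ p.V.1 ∧
      p.r (scl (cf m n s b₁ b₂) (ξ.pt y) j i) = u.elim ζ₁.pt ζ₂.pt j i := by
  have h1 := hM.2.2 _ (n j) _ _ _
    ((natDegree_C_mul_le _ _).trans ((ξ.cp.1 j i).trans_eq (h.add j).symm)) (h.f₁ j i) (h.f₂ j i)
  rw [hv_C_mul, ← mul_assoc, h.add] at h1
  exact ⟨h1.1, h1.2.trans (by cases u <;> rfl)⟩

theorem red (hM : Mt p a t ρ y b₁ b₂ u) :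
    redP p (scl (cf m n s b₁ b₂) (ξ.pt y)) = u.elim ζ₁.pt ζ₂.pt :=
  _root_.funext fun j => _root_.funext fun i => (h.pt hM j i).2

theorem prim (hM : Mt p a t ρ y b₁ b₂ u) : Prim p.V (scl (cf m n s b₁ b₂) (ξ.pt y)) := fun j => by
  have h1 : NZ (u.elim ζ₁.pt ζ₂.pt) := by cases u <;> exact Vb37.nz_pt _ _
  exact ⟨fun i => (h.pt hM j i).1, (h1 j).imp fun i hi =>
    Pl.r_ne_zero_iff.1 ((h.pt hM j i).2 ▸ hi)⟩

theorem int_iff (hM : Mt p a t ρ y b₁ b₂ u) (x : K) :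
    chr (cf m n s b₁ b₂) κ * x ∈ p.V.1 ↔ p.V.v x ≤ (lw κ (ξ.pt y)).val p.V := by
  have h0 := chr_ne (h.cf_ne hM) κ
  rw [← RZ.le_one_iff, ← (h.prim hM).val_lw κ, lw_scl (Vb37.nz_pt _ _) (h.cf_ne hM), val_add,
    val_pr h0, map_mul, mul_comm, mul_le_mul_iff_left₀ (RZ.pos h0)]

theorem chr_mul (σ : K[X]) : chr (cf m n s b₁ b₂) κ * hv (dot κ d) σ y =
    b₁ ^ dot κ m * b₂ ^ dot κ n * hv (dot κ m + dot κ n) (C (chr s κ) * σ) y := by
  rw [chr_cf, hv_C_mul, h.dot_eq, mul_assoc]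

/-- the reduced spaces of sections -/
theorem mem_red (hs : Function.Surjective p.φ) {b₁ b₂ : I → K} {u : I → Option E ⊕ Option E}
    (hM : ∀ q, Mt p a t ρ (ξ.x q) (b₁ q) (b₂ q) (u q)) (hN : ξ.Nrm κ) {w : I → E} :
    w ∈ ((ξ.cfg.gau fun q => cf m n s (b₁ q) (b₂ q)).red0 p).V κ ↔ Vl m n κ u w := by
  constructor
  · intro hw
    obtain ⟨_, ⟨_, h0, rfl⟩, hi, rfl⟩ := exists_of_mem_redS hs hw
    obtain ⟨σ, hσ, rfl⟩ := mem_cfg.1 h0
    have h1 := nrm_gam hN p.V 1 hσ fun q => by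
      rw [one_mul]
      exact (h.int_iff (hM q) _).1 (hi q)
    have h2 := (natDegree_C_mul_le (chr s κ) σ).trans (hσ.trans_eq (h.dot_eq κ))
    obtain ⟨τ₁, τ₂, h3, h4, h5, h6⟩ := h.rd.exists_pair (a := a) h2 fun y _ _ _ hy => by
      rw [← h.chr_mul, h.int_iff hy]
      simpa using h1 y
    refine ⟨τ₁, τ₂, h3, h4, h.rd.node h5 h6, _root_.funext fun q => ?_⟩
    rw [← ((hM q).2.2 _ _ _ _ _ h2 h5 h6).2, ← h.chr_mul]
    rfl
  · rintro ⟨τ₁, τ₂, h1, h2, h3, rfl⟩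
    obtain ⟨σ, h4, h5, h6⟩ := h.rd.exists_lift hs a h1 h2 h3
    have h7 : ∀ q, chr (cf m n s (b₁ q) (b₂ q)) κ * hv (dot κ d) (C (chr s κ)⁻¹ * σ) (ξ.x q) =
        b₁ q ^ dot κ m * b₂ q ^ dot κ n * hv (dot κ m + dot κ n) σ (ξ.x q) := fun q => by
      rw [h.chr_mul, ← mul_assoc (C _), ← C_mul, mul_inv_cancel₀ (chr_ne h.ne κ), C_1, one_mul]
    have h8 := mem_redS p (scl_mem (c := fun q => chr (cf m n s (b₁ q) (b₂ q)) κ)
      (mem_cfg.2 ⟨_, (natDegree_C_mul_le (chr s κ)⁻¹ σ).trans (h4.trans_eq (h.dot_eq κ).symm),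
        rfl⟩)) fun q => h7 q ▸ ((hM q).2.2 _ _ _ _ _ h4 h5 h6).1
    simp only [h7, fun q => ((hM q).2.2 _ _ _ _ _ h4 h5 h6).2] at h8
    exact h8

end Gd

/-- **two-vertex reduction** -/
theorem Gd.lat [IsAlgClosed K] {V : RZ ℂ K} {a t ρ : K} {s : J → K} {ξ : Dat io d I K}
    {ζ₁ : Dat io m I₁ (Rf V)} {ζ₂ : Dat io n I₂ (Rf V)} (h : Gd (plV V) a t ρ s ξ ζ₁ ζ₂)
    (hN : ξ.NrmUp N) (hN₁ : ζ₁.NrmUp N) (hN₂ : ζ₂.NrmUp N) {n₁ : I₁} {n₂ : I₂}
    (h₁ : ζ₁.x n₁ = none) (h₂ : ζ₂.x n₂ = some 0) {g : M → I} {g' : M → I₁ ⊕ I₂}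
    (hg : ∀ i, ∃ b₁ b₂, Mt (plV V) a t ρ (ξ.x (g i)) b₁ b₂ (Sum.map ζ₁.x ζ₂.x (g' i))) :
    Lat N (ξ.cfg.red (plV V)) g (gl ζ₁ n₁ ζ₂ n₂) g' := by
  choose b₁ b₂ u hM using fun q : I => h.rd.exists_mt a (ξ.x q)
  choose y c₁ c₂ hM' using fun q : I₁ ⊕ I₂ =>
    h.rd.exists_mt' (surj_plV V) a (Sum.map ζ₁.x ζ₂.x q)
  let Ξ : Dat io d (I ⊕ (I₁ ⊕ I₂)) K := ⟨ξ.f, Sum.elim ξ.x y, ξ.cp⟩
  have hΞ : Gd (plV V) a t ρ s Ξ ζ₁ ζ₂ := ⟨h.rd, h.add, h.ne, h.f₁, h.f₂⟩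
  have hU : ∀ q, Mt (plV V) a t ρ (Ξ.x q) (Sum.elim b₁ c₁ q) (Sum.elim b₂ c₂ q)
      (Sum.elim u (Sum.map ζ₁.x ζ₂.x) q) := by
    rintro (q | q)
    exacts [hM q, hM' q]
  have hr : (Ξ.res Sum.inl).NrmUp N := hN
  have hc := fun q => hΞ.cf_ne (hU q)
  have hP : (Ξ.cfg.gau fun q => cf m n s (Sum.elim b₁ c₁ q) (Sum.elim b₂ c₂ q)).Pr V :=
    fun q => hΞ.prim (hU q)
  have h1 := (np_cfg hr).gau (nz_cfg Ξ) hc
  have hV := fun κ hκ w => hΞ.mem_red (surj_plV V) hU (Vb37.nrmUp_of_res _ hr κ hκ) (w := w)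
  have hy : ∀ q, ((Ξ.cfg.gau fun q => cf m n s (Sum.elim b₁ c₁ q) (Sum.elim b₂ c₂ q)).red0
      (plV V)).y q = _ := fun q => hΞ.red (hU q)
  have hy' : ∀ q, (gl ζ₁ n₁ ζ₂ n₂).y q = (Sum.map ζ₁.x ζ₂.x q).elim ζ₁.pt ζ₂.pt := by
    rintro (q | q) <;> rfl
  refine ⟨_, inferInstance, _, Sum.inl, Sum.inr, Cfg.Pr.nz_red0 (p := plV V) hP,
    .of_cfg (((mul_cfg Ξ).gau _).red0 (p := plV V) hP), h1.red0 hP, ?_, ?_, ?_, fun i => ?_⟩
  · intro κ hκ σ hσ W γ h2 q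
    obtain ⟨τ₁, τ₂, h3, h4, -, rfl⟩ := (hV κ hκ σ).1 hσ
    simp only [hy] at h2 ⊢
    have h5 := nrm_gam (hN₁ κ hκ) W γ h3 fun q => h2 (.inl q)
    have h6 := nrm_gam (hN₂ κ hκ) W γ h4 fun q => h2 (.inr q)
    generalize Sum.elim u (Sum.map ζ₁.x ζ₂.x) q = e
    rcases e with e | e
    exacts [h5 e, h6 e]
  · refine geqN_of (z₀ := (Cfg.res Sum.inl _).red0 (plV V)) rfl
      (fun κ hκ => h1.red0_V (plV V) hP hκ) (Cfg.Geq.red_red0 ?_ ?_).symm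
    · rw [Cfg.res_gau, ← Vb37.cfg_res]
      exact Cfg.geq_gau ξ.cfg fun q => hc _
    · exact fun q => hP _
  · refine geqN_of (_root_.funext fun q => (hy' q).trans (hy (.inr q)).symm) (fun κ hκ => ?_) .rfl
    ext w
    rw [mem_gl h₁ h₂ h.node]
    constructor
    · rintro ⟨τ₁, τ₂, h2, h3, h4, rfl⟩
      exact ⟨_, (hV κ hκ _).2 ⟨τ₁, τ₂, h2, h3, h4, rfl⟩, rfl⟩
    · rintro ⟨σ, hσ, rfl⟩
      obtain ⟨τ₁, τ₂, h2, h3, h4, rfl⟩ := (hV κ hκ _).1 hσ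
      exact ⟨τ₁, τ₂, h2, h3, h4, rfl⟩
  · obtain ⟨e₁, e₂, h2⟩ := hg i
    rw [hy', ← h.red h2]
    exact ((Par.refl _).scl (Cfg.nrm_ne V ξ.cfg (g i)) (h.cf_ne h2)).red (p := plV V)
      (Cfg.pr_nrm (nz_cfg ξ) V (g i)) (h.prim h2)

end Crest.Agent.X262.Gen42
end
end

-- ▼ part X262/Gen42/Main

/-!
# Row 262, GEN (helper42), part 3: `Drop30.GenStmt` for data with distinct marks

* `red_ext` : reduction commutes with an extension of valued fields;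
* `GenStmt2` : `Drop30.GenStmt` up to the order of the hypotheses; `genStmt2`, `genStmt`.
-/

set_option autoImplicit false
set_option linter.unusedSectionVars false

noncomputable section

namespace Crest.Agent.X262.Gen42

open Crest.Agent.X277 Crest.Agent.X277.BD Crest.Agent.X262.Vb Crest.Agent.X262.Drop30 Polynomial
open Crest.Agent.X277.BD.Cyc (Rf plV)
open Crest.Agent.X262.Hb (LP)

variable {J : Type} [Fintype J] [DecidableEq J] {io : J → Type} [∀ j, Fintype (io j)]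
  [∀ j, DecidableEq (io j)]

section Aux

variable {K L k k' E₀ E I : Type} [Field K] [Algebra ℂ K] [Field L] [Algebra ℂ L] [Field k]
  [Algebra ℂ k] [Field k'] [Algebra ℂ k'] [Field E₀] [Algebra ℂ E₀] [Field E] [Algebra ℂ E]
  [Fintype I]

theorem red_ext {ι : L →ₐ[ℂ] K} {W : RZ ℂ L} {V : RZ ℂ K} {α : Rf W →ₐ[ℂ] Rf V}
    (h : ∀ x, α ((plV W).r x) = (plV V).r (ι x)) {z : Cfg io I L} (hz : z.NZ) :
    Cfg.Geq ((z.map ι).red (plV V)) ((z.red (plV W)).map α) := by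
  have e : (LP.hom ι).comp (LP.at V) = (LP.at W).comp (LP.hom α) := LP.ext fun x => by
    rw [LP.r_comp, LP.r_comp, LP.r_hom, LP.r_hom]
    exact (h x).symm
  exact (Cfg.red_map ι (LP.at V) hz).symm.trans (e ▸ Cfg.map_red (LP.at W) α hz)

theorem exists_gen {γ : k →ₐ[ℂ] k'} (h : deg γ ≠ 0) {α : E₀ →ₐ[ℂ] E} {β : k' →ₐ[ℂ] E}
    (hβ : ∀ x, β (γ x) ∈ Set.range α) :
    ∃ s : Finset E, β.fieldRange ≤ IntermediateField.adjoin ℂ (Set.range α ∪ s) := by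
  classical
  let _ : Algebra k k' := γ.toRingHom.toAlgebra
  have : FiniteDimensional k k' := Module.finite_of_finrank_pos (Nat.pos_of_ne_zero h)
  obtain ⟨S, hS⟩ := Module.Finite.fg_top (R := k) (M := k')
  refine ⟨S.image β, ?_⟩
  rintro _ ⟨x, rfl⟩
  have hx : x ∈ Submodule.span k (S : Set k') := hS ▸ Submodule.mem_top
  change β x ∈ _
  induction hx using Submodule.span_induction with
  | mem x hx =>
    exact IntermediateField.subset_adjoin _ _ (Or.inr (Finset.mem_image_of_mem β hx))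
  | zero => exact map_zero β ▸ zero_mem _
  | add x y _ _ hx hy => exact map_add β x y ▸ add_mem hx hy
  | smul c x _ hx =>
    exact (map_mul β (γ c) x).symm ▸
      mul_mem (IntermediateField.subset_adjoin _ _ (Or.inl (hβ c))) hx

theorem pr_map {δ : k →ₐ[ℂ] K} {V : RZ ℂ K} (h : ∀ x, δ x ∈ V.1) (f : k[X]) :
    PR (plV V) (f.map (δ : k →+* K)) (f.map (Wd.rt δ V h : k →+* Rf V)) := fun l => by
  rw [coeff_map, coeff_map]
  exact ⟨h _, rfl⟩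

theorem v_eq_one {δ : k →ₐ[ℂ] K} {V : RZ ℂ K} (h : ∀ x, δ x ∈ V.1) {x : k} (hx : δ x ≠ 0) :
    V.v (δ x) = 1 :=
  Wd.rr_ne_zero.1 ((_root_.map_ne_zero (Wd.rt δ V h)).2 ((_root_.map_ne_zero δ).1 hx))

end Aux

variable (io) in
/-- `Drop30.GenStmt` for data with distinct marks -/
def GenStmt2 : Prop :=
  ∀ (d m n : J → ℕ) (N : ℕ) (M I K L k k' I₁ I₂ : Type) [Fintype M] [Fintype I] [Fintype I₁]
    [Fintype I₂] [Field K] [Algebra ℂ K] [Field L] [Algebra ℂ L] [Field k] [Algebra ℂ k] [Field k']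
    [Algebra ℂ k'] (x₀ : Dat io d M K) (o a b e : M) (A R : ℂ) (B : K) (S : Set M),
    Shp x₀ o a b e A R B → IsTy d m n S o a b e → Function.Injective x₀.x →
    ∀ (ι : k →ₐ[ℂ] K) (η₁ : Dat io m (Mi S) k) (η₂ : Dat io n (Mo S) k), Chart x₀ A R B S ι η₁ η₂ →
    ∀ (θ : K →ₐ[ℂ] L) (ξ : Dat io d I L) (g : M → I), ξ.res g = x₀.map θ → ξ.NrmUp N →
    ∀ (γ : k →ₐ[ℂ] k') (ξ₁ : Dat io m I₁ k') (ξ₂ : Dat io n I₂ k') (g₁ : Mi S → I₁)
      (g₂ : Mo S → I₂), deg γ ≠ 0 → ξ₁.res g₁ = η₁.map γ → ξ₂.res g₂ = η₂.map γ → ξ₁.NrmUp N →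
      ξ₂.NrmUp N →
    ∀ (W : RZ ℂ L) (hW : ∀ x, (θ.comp ι) x ∈ W.1), W.v (θ (B - algebraMap ℂ K A)) < 1 →
      ∃ (E : Type) (_ : Field E) (_ : Algebra ℂ E) (α : Rf W →ₐ[ℂ] E) (β : k' →ₐ[ℂ] E),
        deg α ≠ 0 ∧ β.comp γ = α.comp (Wd.rt (θ.comp ι) W hW) ∧
        Sim N ((ξ.cfg.red (plV W)).map α) g ((gl ξ₁ (g₁ none) ξ₂ (g₂ none)).map β)
          (Drop30.mk S g₁ g₂)

theorem genStmt2 : GenStmt2 io := by
  intro d m n N M I K L k k' I₁ I₂ _ _ _ _ _ _ _ _ _ _ _ _ x₀ o a b e A R B S hS hT hI ι η₁ η₂ hC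
    θ ξ g hξ hN γ ξ₁ ξ₂ g₁ g₂ hγ hξ₁ hξ₂ hN₁ hN₂ W hW ht
  obtain ⟨K', _, _, _, ι', V, α, hV, hα, hal, hl⟩ := DropD.extStmt L W
  obtain ⟨δ, hδ, hi⟩ := hl k k' γ ((ι'.comp θ).comp ι) hγ
  replace hi := hi fun x => (Wd.mem_dn (α := ι')).1 (hV.symm ▸ hW x)
  obtain ⟨s, hs, hf₁, hf₂⟩ := hC.f
  generalize hφ : ι'.comp θ = φ at hδ
  have H₀ : (ξ.map ι').res g = x₀.map φ := by
    rw [← Vb37.dmap_res, hξ, Vb37.dmap_map, hφ]
  have H₁ : (η₁.map ι).map φ = (ξ₁.res g₁).map δ := by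
    rw [hξ₁, Vb37.dmap_map, Vb37.dmap_map, hδ]
  have H₂ : (η₂.map ι).map φ = (ξ₂.res g₂).map δ := by
    rw [hξ₂, Vb37.dmap_map, Vb37.dmap_map, hδ]
  have hf₀ : ∀ j i, (ξ.map ι').f j i = (x₀.f j i).map (φ : K →+* K') :=
    fun j i => congrArg (fun z => z.f j i) H₀
  have hx₀ : ∀ i, (ξ.map ι').x (g i) = (x₀.x i).map φ := fun i => congrArg (fun z => z.x i) H₀
  have hx₁ : ∀ i, (nx (algebraMap ℂ K A) (B - algebraMap ℂ K A) (x₀.x i.1)).map φ =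
      (ξ₁.x (g₁ (some i))).map δ := fun i => hC.x₁ i ▸ congrArg (fun z => z.x (some i)) H₁
  have hx₂ : ∀ i, (nx (algebraMap ℂ K A) (algebraMap ℂ K (R - A)) (x₀.x i.1)).map φ =
      (ξ₂.x (g₂ (some i))).map δ := fun i => hC.x₂ i ▸ congrArg (fun z => z.x (some i)) H₂
  have hG : Gd (plV V) (φ (algebraMap ℂ K A)) (φ (B - algebraMap ℂ K A))
      (φ (algebraMap ℂ K (R - A))) (fun j => φ (s j)) (ξ.map ι') (ξ₁.map (Wd.rt δ V hi))
      (ξ₂.map (Wd.rt δ V hi)) := by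
    refine ⟨⟨(_root_.map_ne_zero φ).2 (sub_ne_zero.2 hS.ab), ?_, ?_⟩, hT.add,
      fun j => (_root_.map_ne_zero φ).2 (hs j), fun j i => ?_, fun j i => ?_⟩
    · rw [← hφ]
      exact (Wd.dn_lt_one (α := ι') (W := V)).1 (hV.symm ▸ ht)
    · rw [φ.commutes]
      exact V.v_alg (sub_ne_zero.2 hS.ae)
    · have h1 : ((η₁.map ι).f j i).map (φ : K →+* K') = (ξ₁.f j i).map (δ : k' →+* K') :=
        congrArg (fun z => z.f j i) H₁
      rw [hf₁, Polynomial.map_mul, map_C, map_g1] at h1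
      rw [g1_C_mul, hf₀]
      exact h1 ▸ pr_map hi _
    · have h1 : ((η₂.map ι).f j i).map (φ : K →+* K') = (ξ₂.f j i).map (δ : k' →+* K') :=
        congrArg (fun z => z.f j i) H₂
      rw [hf₂, Polynomial.map_mul, map_C, map_g2] at h1
      rw [g2_C_mul, hf₀]
      exact h1 ▸ pr_map hi _
  have h₁ : (ξ₁.map (Wd.rt δ V hi)).x (g₁ none) = none := by
    have h1 : ξ₁.x (g₁ none) = (η₁.x none).map γ := congrArg (fun z => z.x none) hξ₁
    simp [Dat.map, h1, hC.n₁]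
  have h₂ : (ξ₂.map (Wd.rt δ V hi)).x (g₂ none) = some 0 := by
    have h1 : ξ₂.x (g₂ none) = (η₂.x none).map γ := congrArg (fun z => z.x none) hξ₂
    simp [Dat.map, h1, hC.n₂]
  have key : ∀ {ρ y : K} {x : k'}, φ ρ ≠ 0 → φ ((y - algebraMap ℂ K A) / ρ) = δ x →
      φ y = φ (algebraMap ℂ K A) + φ ρ * δ x := fun h0 h1 => by
    rw [← h1, map_div₀, mul_div_cancel₀ _ h0, map_sub, add_sub_cancel]
  have hL := hG.lat (Vb37.nrmUp_map hN _) (Vb37.nrmUp_map hN₁ _) (Vb37.nrmUp_map hN₂ _) h₁ h₂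
    (g := g) (g' := Drop30.mk S g₁ g₂) fun i => by
      rw [hx₀, Drop30.mk]
      by_cases h : i ∈ S
      · have h1 := hx₁ ⟨i, h⟩
        rw [dif_pos h]
        change ∃ b₁ b₂, Mt _ _ _ _ _ b₁ b₂ (.inl ((ξ₁.x (g₁ (some ⟨i, h⟩))).map _))
        rcases h2 : x₀.x i with _ | y
        · exact absurd (hI (h2.trans hS.o.symm) ▸ h) hT.o
        rw [h2] at h1
        obtain ⟨x, h3, h4⟩ := Option.map_eq_some_iff.1 h1.symm
        rw [h3, Option.map_some, key hG.rd.ne h4.symm]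
        exact ⟨_, _, hG.rd.mt_in _ (hi x)⟩
      · have h1 := hx₂ ⟨i, h⟩
        rw [dif_neg h]
        change ∃ b₁ b₂, Mt _ _ _ _ _ b₁ b₂ (.inr ((ξ₂.x (g₂ (some ⟨i, h⟩))).map _))
        rcases h2 : x₀.x i with _ | y
        · rw [h2] at h1
          rw [Option.map_eq_none_iff.1 h1.symm]
          exact ⟨_, _, hG.rd.mt_inf _⟩
        rw [h2] at h1
        obtain ⟨x, h3, h4⟩ := Option.map_eq_some_iff.1 h1.symm
        have h5 : δ x ≠ 0 := h4 ▸ (_root_.map_ne_zero φ).2 (div_ne_zero (sub_ne_zero.2 fun h6 =>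
          h (hI (h2.trans (h6 ▸ hS.a.symm)) ▸ hT.a)) ((_root_.map_ne_zero φ).1 hG.rd.ne'))
        rw [h3, Option.map_some, key hG.rd.ne' h4.symm]
        exact ⟨_, _, hG.rd.mt_out _ (hi x) (hG.rd.lt.trans_eq (v_eq_one hi h5).symm)⟩
  have hP : Node22.Par (ξ₁.pt (ξ₁.x (g₁ none))) (ξ₂.pt (ξ₂.x (g₂ none))) :=
    DropD.par_desc (Wd.rt δ V hi) (Vb37.nz_pt _ _) (by
      have h1 := hG.node
      rw [← h₁, ← h₂] at h1
      exact ⟨1, fun _ => one_ne_zero, (Bub96.pt_map ξ₁ _ _).symm.trans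
        (h1.trans ((Bub96.pt_map ξ₂ _ _).trans (Node22.scl_one _).symm))⟩)
  rw [← gl_map _ hP, Vb37.cfg_map] at hL
  have hc : ∀ x, Wd.rt δ V hi (γ x) = α (Wd.rt (θ.comp ι) W hW x) := fun x => by
    rw [Wd.rt_apply, Wd.rt_apply, hα, ← AlgHom.comp_apply δ, hδ, ← hφ]
    rfl
  obtain ⟨T, hT⟩ := exists_gen hγ (α := α) (β := Wd.rt δ V hi) fun x => ⟨_, (hc x).symm⟩
  obtain ⟨E, α', β', h1, h2, h3, h4⟩ := DropD.descStmt N M I _ _ _ _ α _ _ g _ _ T hal hT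
    (lat_geq hL (red_ext hα (nz_cfg ξ)))
  refine ⟨E, inferInstance, inferInstance, α', β', h1, AlgHom.ext fun x => Subtype.ext ?_, h4⟩
  exact (DFunLike.congr_fun h3 _).trans ((hc x).trans (DFunLike.congr_fun h2 _).symm)


end Crest.Agent.X262.Gen42
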